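import Mathlib

/-!
Euclidean prefix balancing in the plane: every finite sequence in the unit disc of the plane has signs
with all prefix sums of norm at most the square root of three, and this constant is sharp.
More generally in dimension `n + 2` no constant below the square root of `n + 3` works.
-/

namespace Vale.Agent.Lib.P262.Plane

open scoped BigOperators

noncomputable section

/-- Sums over `Fin N` with an index bound agree with sums over a range. -/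
lemma sum_fin_filter_eq_range {M : Type*} [AddCommMonoid M] (N k : ℕ) (hk : k ≤ N) (g : ℕ → M) :
    (∑ i : Fin N with i.val < k, g i.val) = ∑ i ∈ Finset.range k, g i := by
  rw [Finset.sum_filter]
  rw [Fin.sum_univ_eq_sum_range (fun i => if i < k then g i else 0) N]
  rw [← Finset.sum_filter]
  congr 1
  ext i
  simp only [Finset.mem_filter, Finset.mem_range]
  omega

/-! ### The three vector lemma -/

lemma gram_contra (A B C α β γ : ℝ) (ha : A ≤ 1) (hb : B ≤ 1) (hc : C ≤ 1)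
    (hab1 : 1 < A + B + 2 * α) (hab2 : 1 < A + B - 2 * α)
    (hac1 : 1 < A + C + 2 * β) (hac2 : 1 < A + C - 2 * β)
    (hbc1 : 1 < B + C + 2 * γ) (hbc2 : 1 < B + C - 2 * γ)
    (gram : A * B * C + 2 * α * β * γ - A * γ ^ 2 - B * β ^ 2 - C * α ^ 2 = 0) : False := by
  have key : ∀ X Y t : ℝ, X ≤ 1 → Y ≤ 1 → 1 < X + Y + 2 * t → 1 < X + Y - 2 * t →
      0 < X ∧ 0 < Y ∧ 4 * t ^ 2 < X * Y := by
    intro X Y t hX hY h1 h2
    have hs : 0 < X + Y - 1 := by linarith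
    have hX0 : 0 < X := by linarith
    have hY0 : 0 < Y := by linarith
    refine ⟨hX0, hY0, ?_⟩
    have h3 : 4 * t ^ 2 < (X + Y - 1) ^ 2 := by
      have := mul_pos (sub_pos.mpr h1) (sub_pos.mpr h2)
      nlinarith
    have h4 : (X + Y - 1) ^ 2 ≤ X * Y := by
      have h5 : X + Y - 1 ≤ X := by linarith
      have h6 : X + Y - 1 ≤ Y := by linarith
      calc (X + Y - 1) ^ 2 = (X + Y - 1) * (X + Y - 1) := by ring
        _ ≤ X * Y := mul_le_mul h5 h6 hs.le hX0.le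
    linarith
  obtain ⟨hA0, hB0, h1⟩ := key A B α ha hb hab1 hab2
  obtain ⟨_, hC0, h2⟩ := key A C β ha hc hac1 hac2
  obtain ⟨_, _, h3⟩ := key B C γ hb hc hbc1 hbc2
  have hABC : 0 < A * B * C := by positivity
  have h4 : 4 * (A * γ ^ 2) < A * B * C := by
    have := mul_lt_mul_of_pos_left h3 hA0
    have e1 : A * (4 * γ ^ 2) = 4 * (A * γ ^ 2) := by ring
    have e2 : A * (B * C) = A * B * C := by ring
    linarith
  have h5 : 4 * (B * β ^ 2) < A * B * C := by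
    have := mul_lt_mul_of_pos_left h2 hB0
    have e1 : B * (4 * β ^ 2) = 4 * (B * β ^ 2) := by ring
    have e2 : B * (A * C) = A * B * C := by ring
    linarith
  have h6 : 4 * (C * α ^ 2) < A * B * C := by
    have := mul_lt_mul_of_pos_left h1 hC0
    have e1 : C * (4 * α ^ 2) = 4 * (C * α ^ 2) := by ring
    have e2 : C * (A * B) = A * B * C := by ring
    linarith
  -- the triple product bound
  have h7 : (8 * (α * β * γ)) ^ 2 < (A * B * C) ^ 2 := by
    have p1 : 0 ≤ 4 * α ^ 2 := by positivity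
    have p2 : 0 ≤ 4 * β ^ 2 := by positivity
    have p3 : 0 ≤ 4 * γ ^ 2 := by positivity
    have m1 : 4 * α ^ 2 * (4 * β ^ 2) < A * B * (A * C) := by
      apply mul_lt_mul'' h1 h2 p1 p2
    have m2 : 4 * α ^ 2 * (4 * β ^ 2) * (4 * γ ^ 2) < A * B * (A * C) * (B * C) := by
      apply mul_lt_mul'' m1 h3 (by positivity) p3
    calc (8 * (α * β * γ)) ^ 2 = 4 * α ^ 2 * (4 * β ^ 2) * (4 * γ ^ 2) := by ring
      _ < A * B * (A * C) * (B * C) := m2
      _ = (A * B * C) ^ 2 := by ring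
  have h8 : - (A * B * C) < 8 * (α * β * γ) := by
    have := abs_lt_of_sq_lt_sq h7 hABC.le
    exact (abs_lt.mp this).1
  have e : 2 * α * β * γ = 2 * (α * β * γ) := by ring
  rw [e] at gram
  linarith

lemma three_aux (a0 a1 b0 b1 c0 c1 : ℝ)
    (ha : a0 ^ 2 + a1 ^ 2 ≤ 1) (hb : b0 ^ 2 + b1 ^ 2 ≤ 1) (hc : c0 ^ 2 + c1 ^ 2 ≤ 1)
    (hab1 : 1 < (a0 + b0) ^ 2 + (a1 + b1) ^ 2) (hab2 : 1 < (a0 - b0) ^ 2 + (a1 - b1) ^ 2)
    (hac1 : 1 < (a0 + c0) ^ 2 + (a1 + c1) ^ 2) (hac2 : 1 < (a0 - c0) ^ 2 + (a1 - c1) ^ 2)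
    (hbc1 : 1 < (b0 + c0) ^ 2 + (b1 + c1) ^ 2) (hbc2 : 1 < (b0 - c0) ^ 2 + (b1 - c1) ^ 2) :
    False := by
  refine gram_contra (a0 ^ 2 + a1 ^ 2) (b0 ^ 2 + b1 ^ 2) (c0 ^ 2 + c1 ^ 2)
    (a0 * b0 + a1 * b1) (a0 * c0 + a1 * c1) (b0 * c0 + b1 * c1) ha hb hc ?_ ?_ ?_ ?_ ?_ ?_ (by ring)
  · linarith [show (a0 + b0) ^ 2 + (a1 + b1) ^ 2 = a0 ^ 2 + a1 ^ 2 + (b0 ^ 2 + b1 ^ 2) + 2 * (a0 * b0 + a1 * b1) by ring]
  · linarith [show (a0 - b0) ^ 2 + (a1 - b1) ^ 2 = a0 ^ 2 + a1 ^ 2 + (b0 ^ 2 + b1 ^ 2) - 2 * (a0 * b0 + a1 * b1) by ring]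
  · linarith [show (a0 + c0) ^ 2 + (a1 + c1) ^ 2 = a0 ^ 2 + a1 ^ 2 + (c0 ^ 2 + c1 ^ 2) + 2 * (a0 * c0 + a1 * c1) by ring]
  · linarith [show (a0 - c0) ^ 2 + (a1 - c1) ^ 2 = a0 ^ 2 + a1 ^ 2 + (c0 ^ 2 + c1 ^ 2) - 2 * (a0 * c0 + a1 * c1) by ring]
  · linarith [show (b0 + c0) ^ 2 + (b1 + c1) ^ 2 = b0 ^ 2 + b1 ^ 2 + (c0 ^ 2 + c1 ^ 2) + 2 * (b0 * c0 + b1 * c1) by ring]
  · linarith [show (b0 - c0) ^ 2 + (b1 - c1) ^ 2 = b0 ^ 2 + b1 ^ 2 + (c0 ^ 2 + c1 ^ 2) - 2 * (b0 * c0 + b1 * c1) by ring]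

abbrev E2 := EuclideanSpace ℝ (Fin 2)

lemma norm_sq_E2 (x : E2) : ‖x‖ ^ 2 = x 0 ^ 2 + x 1 ^ 2 := by
  rw [EuclideanSpace.norm_sq_eq]
  simp [Fin.sum_univ_two]

lemma norm_le_one_iff_E2 (x : E2) : ‖x‖ ≤ 1 ↔ x 0 ^ 2 + x 1 ^ 2 ≤ 1 := by
  rw [← norm_sq_E2]
  constructor
  · intro h
    have := norm_nonneg x
    nlinarith
  · intro h
    have := norm_nonneg x
    nlinarith

/-- Among three vectors of the closed unit disc, two have a signed sum in the disc. -/
lemma three_merge (a b c : E2) (ha : ‖a‖ ≤ 1) (hb : ‖b‖ ≤ 1) (hc : ‖c‖ ≤ 1) :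
    (‖a + b‖ ≤ 1 ∨ ‖a - b‖ ≤ 1) ∨ (‖a + c‖ ≤ 1 ∨ ‖a - c‖ ≤ 1) ∨ (‖b + c‖ ≤ 1 ∨ ‖b - c‖ ≤ 1) := by
  by_contra hcon
  push Not at hcon
  obtain ⟨⟨h1, h2⟩, ⟨h3, h4⟩, ⟨h5, h6⟩⟩ := hcon
  rw [norm_le_one_iff_E2] at ha hb hc
  have conv : ∀ x : E2, 1 < ‖x‖ → 1 < x 0 ^ 2 + x 1 ^ 2 := by
    intro x hx
    rw [← norm_sq_E2]
    nlinarith [norm_nonneg x]
  have h1' := conv _ h1
  have h2' := conv _ h2
  have h3' := conv _ h3
  have h4' := conv _ h4
  have h5' := conv _ h5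
  have h6' := conv _ h6
  simp only [PiLp.add_apply, PiLp.sub_apply] at h1' h2' h3' h4' h5' h6'
  exact three_aux _ _ _ _ _ _ ha hb hc h1' h2' h3' h4' h5' h6'

/-! ### Signs for the upper bound -/

section Upper

variable (v : ℕ → E2)

/-- The partial sum of the first `k` signed vectors. -/
def pfx (ε : ℕ → ℝ) (k : ℕ) : E2 := ∑ i ∈ Finset.range k, ε i • v i

/-- `P` is reached after `k` steps along a signing all of whose partial sums have squared norm at most `3`. -/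
def Good (k : ℕ) (P : E2) : Prop :=
  ∃ ε : ℕ → ℝ, (∀ i, ε i = 1 ∨ ε i = -1) ∧ (∀ j, j ≤ k → ‖pfx v ε j‖ ^ 2 ≤ 3) ∧ pfx v ε k = P

lemma good_zero : Good v 0 0 :=
  ⟨fun _ => 1, fun _ => Or.inl rfl, by
    intro j hj
    have : j = 0 := by omega
    subst this
    simp [pfx], by simp [pfx]⟩

variable {v}

lemma good_step {k : ℕ} {P : E2} (hP : Good v k P) {s : ℝ} (hs : s = 1 ∨ s = -1)
    (hn : ‖P + s • v k‖ ^ 2 ≤ 3) : Good v (k + 1) (P + s • v k) := by
  obtain ⟨ε, hε, hb, rfl⟩ := hP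
  refine ⟨Function.update ε k s, ?_, ?_, ?_⟩
  · intro i
    by_cases h : i = k
    · subst h; simpa using hs
    · rw [Function.update_of_ne h]; exact hε i
  · have key : ∀ j, j ≤ k → pfx v (Function.update ε k s) j = pfx v ε j := by
      intro j hj
      unfold pfx
      apply Finset.sum_congr rfl
      intro i hi
      have : i ≠ k := by
        have := Finset.mem_range.mp hi
        omega
      rw [Function.update_of_ne this]
    intro j hj
    by_cases h : j ≤ k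
    · rw [key j h]; exact hb j h
    · have hjk : j = k + 1 := by omega
      subst hjk
      have : pfx v (Function.update ε k s) (k + 1) = pfx v ε k + s • v k := by
        have h2 : pfx v (Function.update ε k s) (k + 1)
            = pfx v (Function.update ε k s) k + (Function.update ε k s k) • v k := by
          simp [pfx, Finset.sum_range_succ]
        rw [h2, key k le_rfl]
        simp
      rw [this]; exact hn
  · have key : pfx v (Function.update ε k s) k = pfx v ε k := by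
      unfold pfx
      apply Finset.sum_congr rfl
      intro i hi
      have : i ≠ k := by
        have := Finset.mem_range.mp hi
        omega
      rw [Function.update_of_ne this]
    have h2 : pfx v (Function.update ε k s) (k + 1)
        = pfx v (Function.update ε k s) k + (Function.update ε k s k) • v k := by
      simp [pfx, Finset.sum_range_succ]
    rw [h2, key]
    simp

variable (v)

/-- The invariant: two reachable points `p + u`, `p - u`, with `p`, `u` in the unit disc. -/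
def Inv (k : ℕ) : Prop :=
  ∃ p u : E2, ‖p‖ ≤ 1 ∧ ‖u‖ ≤ 1 ∧ Good v k (p + u) ∧ Good v k (p - u)

variable {v}

lemma inv_of_pair {k : ℕ} {a b : E2} (ha : ‖a‖ ≤ 1) (hb : ‖b‖ ≤ 1)
    (h1 : ‖a + b‖ ^ 2 ≤ 3 → Good v k (a + b)) (h2 : ‖a - b‖ ^ 2 ≤ 3 → Good v k (a - b)) :
    Inv v k := by
  by_cases c1 : ‖a + b‖ ≤ 1
  · have hg := h1 (by nlinarith [norm_nonneg (a + b)])
    exact ⟨a + b, 0, c1, by simp, by simpa using hg, by simpa using hg⟩
  by_cases c2 : ‖a - b‖ ≤ 1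
  · have hg := h2 (by nlinarith [norm_nonneg (a - b)])
    exact ⟨a - b, 0, c2, by simp, by simpa using hg, by simpa using hg⟩
  push Not at c1 c2
  have para : ‖a + b‖ ^ 2 + ‖a - b‖ ^ 2 = 2 * (‖a‖ ^ 2 + ‖b‖ ^ 2) :=
    parallelogram_law_with_norm ℝ a b
  have ha0 := norm_nonneg a
  have hb0 := norm_nonneg b
  have haa : ‖a‖ ^ 2 ≤ 1 := by nlinarith
  have hbb : ‖b‖ ^ 2 ≤ 1 := by nlinarith
  have c1' : 1 < ‖a + b‖ ^ 2 := by nlinarith
  have c2' : 1 < ‖a - b‖ ^ 2 := by nlinarith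
  refine ⟨a, b, ha, hb, h1 (by nlinarith), h2 (by nlinarith)⟩

lemma inv_zero : Inv v 0 :=
  ⟨0, 0, by simp, by simp, by simpa using good_zero v, by simpa using good_zero v⟩

lemma inv_step (hv : ∀ i, ‖v i‖ ≤ 1) {k : ℕ} (h : Inv v k) : Inv v (k + 1) := by
  obtain ⟨p, u, hp, hu, g1, g2⟩ := h
  have hw := hv k
  have plus : ∀ {P : E2}, Good v k P → ∀ (s : ℝ), (s = 1 ∨ s = -1) → ∀ Q : E2, Q = P + s • v k →
      ‖Q‖ ^ 2 ≤ 3 → Good v (k + 1) Q := by
    intro P hP s hs Q hQ hn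
    subst hQ
    exact good_step hP hs hn
  rcases three_merge p u (v k) hp hu hw with (c | c) | (c | c) | (c | c)
  · -- `p + u` is in the disc
    exact inv_of_pair (a := p + u) (b := v k) c hw
      (fun hn => plus g1 1 (Or.inl rfl) _ (by simp) hn)
      (fun hn => plus g1 (-1) (Or.inr rfl) _ (by simp [sub_eq_add_neg]) hn)
  · exact inv_of_pair (a := p - u) (b := v k) c hw
      (fun hn => plus g2 1 (Or.inl rfl) _ (by simp) hn)
      (fun hn => plus g2 (-1) (Or.inr rfl) _ (by simp [sub_eq_add_neg]) hn)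
  · -- `p + w` is in the disc: new centre
    exact inv_of_pair (a := p + v k) (b := u) c hu
      (fun hn => plus g1 1 (Or.inl rfl) _ (by simp; abel) hn)
      (fun hn => plus g2 1 (Or.inl rfl) _ (by simp; abel) hn)
  · exact inv_of_pair (a := p - v k) (b := u) c hu
      (fun hn => plus g1 (-1) (Or.inr rfl) _ (by simp; abel) hn)
      (fun hn => plus g2 (-1) (Or.inr rfl) _ (by simp; abel) hn)
  · -- `u + w` is in the disc: new generator
    exact inv_of_pair (a := p) (b := u + v k) hp c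
      (fun hn => plus g1 1 (Or.inl rfl) _ (by simp; abel) hn)
      (fun hn => plus g2 (-1) (Or.inr rfl) _ (by simp; abel) hn)
  · exact inv_of_pair (a := p) (b := u - v k) hp c
      (fun hn => plus g1 (-1) (Or.inr rfl) _ (by simp; abel) hn)
      (fun hn => plus g2 1 (Or.inl rfl) _ (by simp; abel) hn)

lemma inv_all (hv : ∀ i, ‖v i‖ ≤ 1) (k : ℕ) : Inv v k := by
  induction k with
  | zero => exact inv_zero
  | succ k ih => exact inv_step hv ih

end Upper

/-- The upper bound in the plane, with signs in `{1, -1}`. -/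
theorem upper_bound (N : ℕ) (v : Fin N → E2) (hv : ∀ i, ‖v i‖ ≤ 1) :
    ∃ ε : Fin N → ℝ, (∀ i, ε i = 1 ∨ ε i = -1) ∧
      ∀ k : ℕ, k ≤ N → ‖∑ i : Fin N with i.val < k, ε i • v i‖ ≤ Real.sqrt 3 := by
  let w : ℕ → E2 := fun i => if h : i < N then v ⟨i, h⟩ else 0
  have hw : ∀ i, ‖w i‖ ≤ 1 := by
    intro i
    by_cases h : i < N
    · simp only [w, h, dif_pos]; exact hv _
    · simp [w, h]
  obtain ⟨p, u, _, _, g, _⟩ := inv_all hw N
  obtain ⟨ε', hε', hb, _⟩ := g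
  refine ⟨fun i => ε' i.val, fun i => hε' _, ?_⟩
  intro k hk
  have hsum : (∑ i : Fin N with i.val < k, ε' i.val • v i) = pfx w ε' k := by
    have h1 : ∀ i : Fin N, ε' i.val • v i = (fun j => ε' j • w j) i.val := by
      intro i
      simp [w, i.isLt]
    simp_rw [h1]
    exact sum_fin_filter_eq_range N k hk (fun j => ε' j • w j)
  have hfin := hb k hk
  show ‖∑ i : Fin N with i.val < k, ε' i.val • v i‖ ≤ Real.sqrt 3
  rw [hsum]
  exact Real.le_sqrt_of_sq_le hfin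

end

end Vale.Agent.Lib.P262.Plane
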