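import Mathlib
import Vale.Agent.Lib.P262.Plane

/-!
A plane gadget for Euclidean prefix balancing. A finite word of lattice vectors in the plane, of
Euclidean norm at most `5` on the lattice `ℤ²`, forces squared norm at least `64` from EVERY lattice
start (checked by a bit mask simulation of the set of surviving positions). Running copies of the
word lexicographically in orthogonal planes adds these gains, so that after rescaling by `1 / 5`
every signing of the resulting sequence in dimension `2 * k` has a prefix of squared norm at least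
`(64 / 25) * k`.
-/

namespace Vale.Agent.Lib.P262.Gadget

open scoped BigOperators

/-- Along every signing of the list, some prefix (the start included) satisfies `f`. -/
def Forced {G : Type*} [AddCommGroup G] (f : G → Prop) : G → List G → Prop
  | p, [] => f p
  | p, w :: L => f p ∨ (Forced f (p + w) L ∧ Forced f (p - w) L)

section Generic

variable {G : Type*} [AddCommGroup G]

lemma forced_of {f : G → Prop} {p : G} (h : f p) : ∀ L : List G, Forced f p L
  | [] => h
  | _ :: _ => Or.inl h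

lemma forced_append_left {f : G → Prop} (L₂ : List G) : ∀ (L₁ : List G) (p : G),
    Forced f p L₁ → Forced f p (L₁ ++ L₂)
  | [], p, h => forced_of (f := f) (p := p) h L₂
  | w :: L, p, h => by
    rcases h with h | ⟨h1, h2⟩
    · exact Or.inl h
    · exact Or.inr ⟨forced_append_left L₂ L _ h1, forced_append_left L₂ L _ h2⟩

lemma forced_append_inv {f : G → Prop} (I : G → Prop) (L₂ : List G) :
    ∀ (L₁ : List G) (p : G), (∀ w ∈ L₁, ∀ x, I x → I (x + w) ∧ I (x - w)) → I p →
      (∀ x, I x → Forced f x L₂) → Forced f p (L₁ ++ L₂)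
  | [], p, _, hp, h => h p hp
  | w :: L, p, hw, hp, h => by
    have hL : ∀ u ∈ L, ∀ x, I x → I (x + u) ∧ I (x - u) :=
      fun u hu => hw u (List.mem_cons_of_mem _ hu)
    have hw0 := hw w List.mem_cons_self p hp
    exact Or.inr ⟨forced_append_inv I L₂ L _ hL hw0.1 h, forced_append_inv I L₂ L _ hL hw0.2 h⟩

lemma forced_congr {f g : G → Prop} (Q : G → Prop) (hfg : ∀ x, Q x → f x → g x) :
    ∀ (L : List G) (p : G), (∀ w ∈ L, ∀ x, Q x → Q (x + w) ∧ Q (x - w)) → Q p →
      Forced f p L → Forced g p L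
  | [], p, _, hp, h => hfg p hp h
  | w :: L, p, hw, hp, h => by
    have hL : ∀ u ∈ L, ∀ x, Q x → Q (x + u) ∧ Q (x - u) :=
      fun u hu => hw u (List.mem_cons_of_mem _ hu)
    have hw0 := hw w List.mem_cons_self p hp
    rcases h with h | ⟨h1, h2⟩
    · exact Or.inl (hfg p hp h)
    · exact Or.inr ⟨forced_congr Q hfg L _ hL hw0.1 h1, forced_congr Q hfg L _ hL hw0.2 h2⟩

end Generic

/-! ### The plane: simulation of the set of surviving positions by bit masks -/

/-- The target in the plane: squared norm at least `64`. -/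
def pf (y : ℤ × ℤ) : Prop := 64 ≤ y.1 ^ 2 + y.2 ^ 2

/-- Bit index of a lattice point. -/
def idx (a b : ℤ) : ℕ := ((a + 15) * 40 + (b + 15)).toNat

/-- Bit shift of a lattice vector. -/
def sh (g : ℤ × ℤ) : ℕ := (g.1 * 40 + g.2).toNat

/-- One step on masks: both children of every alive point, restricted to the disc mask. -/
def stepMask (D A : ℕ) (g : ℤ × ℤ) : ℕ := ((A <<< sh g) ||| (A >>> sh g)) &&& D

/-- Masks along a word. -/
def sim (D : ℕ) : ℕ → List (ℤ × ℤ) → ℕ
  | A, [] => A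
  | A, g :: L => sim D (stepMask D A g) L

lemma bound_of_sq {a b : ℤ} {c : ℤ} (hc : 0 ≤ c) (h : a ^ 2 + b ^ 2 ≤ (c + 1) ^ 2 - 1) :
    -c ≤ a ∧ a ≤ c := by
  constructor <;> nlinarith [sq_nonneg b]

lemma idx_add {a b : ℤ} {g : ℤ × ℤ} (hab : a ^ 2 + b ^ 2 ≤ 63)
    (hg : 0 ≤ g.1 * 40 + g.2) : idx (a + g.1) (b + g.2) = idx a b + sh g := by
  have ha := bound_of_sq (a := a) (b := b) (c := 7) (by norm_num) (by nlinarith)
  have hb := bound_of_sq (a := b) (b := a) (c := 7) (by norm_num) (by nlinarith)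
  unfold idx sh
  rw [← Int.toNat_add (by nlinarith) hg]
  congr 1
  ring

lemma idx_sub {a b : ℤ} {g : ℤ × ℤ} (hab : a ^ 2 + b ^ 2 ≤ 63)
    (hg : 0 ≤ g.1 * 40 + g.2) (hg2 : g.1 ^ 2 + g.2 ^ 2 ≤ 25) :
    idx a b = idx (a - g.1) (b - g.2) + sh g := by
  have ha := bound_of_sq (a := a) (b := b) (c := 7) (by norm_num) (by nlinarith)
  have hb := bound_of_sq (a := b) (b := a) (c := 7) (by norm_num) (by nlinarith)
  have hu := bound_of_sq (a := g.1) (b := g.2) (c := 5) (by norm_num) (by nlinarith)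
  have hv := bound_of_sq (a := g.2) (b := g.1) (c := 5) (by norm_num) (by nlinarith)
  unfold idx sh
  rw [← Int.toNat_add (by nlinarith) hg]
  congr 1
  ring

theorem sim_sound (D : ℕ) (hD : ∀ a b : ℤ, a ^ 2 + b ^ 2 ≤ 63 → D.testBit (idx a b) = true) :
    ∀ (L : List (ℤ × ℤ)) (A : ℕ), (∀ g ∈ L, 0 ≤ g.1 * 40 + g.2 ∧ g.1 ^ 2 + g.2 ^ 2 ≤ 25) →
      sim D A L = 0 → ∀ a b : ℤ, a ^ 2 + b ^ 2 ≤ 63 → A.testBit (idx a b) = true →
        Forced pf (a, b) L := by
  intro L
  induction L with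
  | nil =>
    intro A _ hs a b _ hbit
    have hA : A = 0 := hs
    rw [hA, Nat.zero_testBit] at hbit
    exact absurd hbit (by simp)
  | cons g L ih =>
    intro A hg hs a b hab hbit
    have hg0 := hg g List.mem_cons_self
    have hL : ∀ u ∈ L, 0 ≤ u.1 * 40 + u.2 ∧ u.1 ^ 2 + u.2 ^ 2 ≤ 25 :=
      fun u hu => hg u (List.mem_cons_of_mem _ hu)
    have hs' : sim D (stepMask D A g) L = 0 := hs
    refine Or.inr ⟨?_, ?_⟩
    · have e : (a, b) + g = (a + g.1, b + g.2) := rfl
      rw [e]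
      by_cases hc : (a + g.1) ^ 2 + (b + g.2) ^ 2 ≤ 63
      · refine ih _ hL hs' _ _ hc ?_
        unfold stepMask
        rw [Nat.testBit_and, Nat.testBit_or, hD _ _ hc, idx_add hab hg0.1, Nat.testBit_shiftLeft]
        simp [hbit]
      · refine forced_of ?_ L
        unfold pf
        push Not at hc
        show 64 ≤ (a + g.1) ^ 2 + (b + g.2) ^ 2
        linarith
    · have e : (a, b) - g = (a - g.1, b - g.2) := rfl
      rw [e]
      by_cases hc : (a - g.1) ^ 2 + (b - g.2) ^ 2 ≤ 63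
      · refine ih _ hL hs' _ _ hc ?_
        unfold stepMask
        rw [Nat.testBit_and, Nat.testBit_or, hD _ _ hc, Nat.testBit_shiftRight]
        have e2 : sh g + idx (a - g.1) (b - g.2) = idx a b := by
          rw [idx_sub hab hg0.1 hg0.2]
          ring
        rw [e2, hbit]
        simp
      · refine forced_of ?_ L
        unfold pf
        push Not at hc
        show 64 ≤ (a - g.1) ^ 2 + (b - g.2) ^ 2
        linarith

/-- The mask of the lattice points of squared norm at most `63`. -/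
def D0 : ℕ := 4193337840904710779870288228411186045549225289213101874566983706106079967079034168309640089239161530212304132712720021841025407937376432308106232588565238257696788490798522180468650409126503606496332037818766682372430369521109746727065003042155051771838667221762962358272

/-- The word. -/
def word : List (ℤ × ℤ) := [
  (4, 3), (4, 1), (4, 3), (4, 2), (4, 3), (4, -3), (4, -2), (4, 3), (4, 3), (2, 4), (2, 4), (4, 3),
  (5, 0), (5, 0), (4, 3), (2, 4), (4, -3), (5, 0), (3, -4), (4, -3), (4, -3), (4, -2), (4, 3), (4, 2),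
  (4, -3), (4, -2), (4, 3), (4, 3), (4, -3), (2, -4), (2, 4), (2, 4), (4, -3), (5, 0), (3, -4), (4, -2),
  (4, -3), (4, -2), (4, -3), (4, 3), (4, 3), (4, -2), (4, -3), (4, 3), (0, 5), (4, -3), (4, 3), (4, 2),
  (4, 3), (4, 2), (4, 3), (4, 2), (4, 3), (0, 5), (4, -3), (4, -1), (4, -3), (4, -2), (4, -3), (4, 3),
  (0, 5), (2, -4), (4, 3), (4, 1), (4, 3), (4, 2), (4, 3), (4, -3), (4, -2), (4, 3), (4, 3), (4, -3),
  (4, -2), (4, 3), (4, 2), (4, -3), (4, -2), (4, 3), (4, -3), (4, 3), (4, -2), (4, -3), (4, 2), (4, 3),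
  (4, -2), (4, -3), (4, 3), (0, 5), (4, -3), (4, 3), (4, 2), (4, 3), (4, 2), (4, 3), (4, 2), (4, 3),
  (4, -3), (0, 5), (4, -3), (4, 3), (4, 2), (4, -3), (4, -3), (4, 3), (4, 2), (4, 3), (4, 2), (4, 3),
  (4, -3), (4, -3), (4, 2), (4, 3), (4, -3), (4, -2), (4, 3), (2, 4), (4, -3), (5, 0), (3, -4), (3, -3),
  (3, -4), (0, 5), (3, 4), (3, 3), (3, 4), (3, 3), (3, 4), (3, 3), (3, 4), (4, -3), (4, -2), (4, -1),
  (4, -3), (4, -2), (4, 3), (4, -3), (4, -2), (4, 3), (4, 2), (4, -3), (4, -2), (4, 3), (4, 2), (4, -3),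
  (4, 3), (0, 5), (4, 3), (4, -3), (0, 5), (4, -3), (4, 3), (4, -2), (4, -3), (4, 2), (4, 3), (4, -2),
  (4, -3), (0, 5), (4, -3), (4, -2), (4, 3), (4, 2), (4, -3), (4, -2), (4, 3), (4, -3), (0, 5), (4, -3),
  (4, 3), (0, 5), (4, 3), (4, -3), (4, 2), (4, 3), (4, -1), (4, -3), (4, 3), (4, -2), (4, -2), (4, -1),
  (4, -3), (4, -2), (4, 0), (4, 3), (4, 1), (4, 3), (4, -3), (0, 4), (4, 3), (4, -3), (4, -2), (4, -3),
  (4, -2), (4, -3), (0, 5), (4, 3), (4, 1), (4, 3), (4, 2), (4, 3), (4, -3), (0, 5), (4, 3), (4, -3),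
  (0, 5), (4, 3), (4, -3), (4, -2), (4, -3), (4, -1), (4, -3), (2, -4), (4, -3), (4, -1), (4, -3), (4, -2),
  (4, -3), (4, 3), (4, 0), (0, 5), (4, 0), (4, 3), (4, -3), (0, 5), (4, -3), (4, 3), (4, 0), (4, 0),
  (0, 5), (4, -3), (4, 3), (4, 2), (4, 3), (4, 1), (4, 3), (4, 2), (4, 3), (4, -3), (0, 5), (5, 0),
  (5, 0), (4, -3), (4, 3), (0, 5), (4, 3), (4, -3), (5, 0), (0, 5), (5, 0), (4, 3), (4, -3), (4, -2),
  (4, -3), (4, -1), (4, -3), (1, -4), (3, -4), (2, -4), (3, -4), (3, 4), (0, 4), (4, 0), (0, 4), (3, -4),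
  (3, 4), (2, 4), (3, 4), (2, 4), (3, 4), (2, 4), (3, 4), (3, -4), (0, 4), (4, 0), (0, 4), (3, 4),
  (3, -4), (2, -4), (3, -4), (1, -4), (3, -4), (4, -2), (3, -4), (1, -4), (3, -4), (2, -4), (3, 4), (3, -4),
  (0, 4), (4, 0), (0, 4), (3, -4), (3, 4), (2, 4), (3, 4), (2, 4), (3, 4), (2, 4), (3, 4), (3, -4),
  (0, 5), (4, 0), (0, 5), (3, -4), (3, 4), (2, -4), (3, -4), (1, -4), (3, -4)
  ]

theorem word_ok : ∀ g ∈ word, 0 ≤ g.1 * 40 + g.2 ∧ g.1 ^ 2 + g.2 ^ 2 ≤ 25 := by
  decide +kernel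

theorem sim_zero : sim D0 D0 word = 0 := by
  decide +kernel

theorem D0_grid : ∀ i j : Fin 15, ((i.val : ℤ) - 7) ^ 2 + ((j.val : ℤ) - 7) ^ 2 ≤ 63 →
    D0.testBit (idx ((i.val : ℤ) - 7) ((j.val : ℤ) - 7)) = true := by
  decide +kernel

theorem D0_disc (a b : ℤ) (hab : a ^ 2 + b ^ 2 ≤ 63) : D0.testBit (idx a b) = true := by
  have ha := bound_of_sq (a := a) (b := b) (c := 7) (by norm_num) (by nlinarith)
  have hb := bound_of_sq (a := b) (b := a) (c := 7) (by norm_num) (by nlinarith)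
  have hi : (a + 7).toNat < 15 := by omega
  have hj : (b + 7).toNat < 15 := by omega
  have h := D0_grid ⟨(a + 7).toNat, hi⟩ ⟨(b + 7).toNat, hj⟩
  have e1 : (((a + 7).toNat : ℕ) : ℤ) - 7 = a := by
    rw [Int.toNat_of_nonneg (by omega)]
    ring
  have e2 : (((b + 7).toNat : ℕ) : ℤ) - 7 = b := by
    rw [Int.toNat_of_nonneg (by omega)]
    ring
  simp only [e1, e2] at h
  exact h hab

/-- The gadget: from every lattice start the word forces squared norm at least `64`. -/
theorem gadget_forced (y : ℤ × ℤ) : Forced pf y word := by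
  by_cases hc : y.1 ^ 2 + y.2 ^ 2 ≤ 63
  · exact sim_sound D0 D0_disc word D0 word_ok sim_zero y.1 y.2 hc (D0_disc _ _ hc)
  · refine forced_of ?_ word
    unfold pf
    push Not at hc
    linarith

/-! ### Lexicographic product over orthogonal planes -/

/-- The plane vector `g` placed on the coordinates `2 * k` and `2 * k + 1`. -/
def lift (k : ℕ) (g : ℤ × ℤ) : ℕ → ℤ :=
  fun i => if i = 2 * k then g.1 else if i = 2 * k + 1 then g.2 else 0

/-- The coordinates of plane number `k`. -/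
def plane (k : ℕ) (x : ℕ → ℤ) : ℤ × ℤ := (x (2 * k), x (2 * k + 1))

/-- The squared norm on the first `k` planes. -/
def sqN (k : ℕ) (x : ℕ → ℤ) : ℤ :=
  ∑ l ∈ Finset.range k, ((x (2 * l)) ^ 2 + (x (2 * l + 1)) ^ 2)

/-- The lexicographic tower of the word. -/
def tower : ℕ → List (ℕ → ℤ)
  | 0 => []
  | k + 1 => tower k ++ word.flatMap fun g => lift k g :: tower k

lemma mem_tower {k : ℕ} {w : ℕ → ℤ} (hw : w ∈ tower k) : ∃ l, l < k ∧ ∃ g ∈ word, w = lift l g := by
  induction k with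
  | zero => simp [tower] at hw
  | succ k ih =>
    simp only [tower, List.mem_append, List.mem_flatMap, List.mem_cons] at hw
    rcases hw with hw | ⟨g, hg, hw | hw⟩
    · obtain ⟨l, hl, g, hg, e⟩ := ih hw
      exact ⟨l, by omega, g, hg, e⟩
    · exact ⟨k, by omega, g, hg, hw⟩
    · obtain ⟨l, hl, g, hg, e⟩ := ih hw
      exact ⟨l, by omega, g, hg, e⟩

lemma lift_other {l k : ℕ} (h : l < k) (g : ℤ × ℤ) :
    lift l g (2 * k) = 0 ∧ lift l g (2 * k + 1) = 0 := by
  constructor
  · simp only [lift]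
    rw [if_neg (by omega), if_neg (by omega)]
  · simp only [lift]
    rw [if_neg (by omega), if_neg (by omega)]

/-- Running the tower of level `k` does not change plane `k`. -/
lemma tower_plane {k : ℕ} (c : ℤ × ℤ) : ∀ w ∈ tower k, ∀ x : ℕ → ℤ, plane k x = c →
    plane k (x + w) = c ∧ plane k (x - w) = c := by
  intro w hw x hx
  obtain ⟨l, hl, g, _, rfl⟩ := mem_tower hw
  obtain ⟨h0, h1⟩ := lift_other hl g
  constructor
  · rw [← hx]
    simp [plane, h0, h1]
  · rw [← hx]
    simp [plane, h0, h1]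

lemma plane_lift_add (k : ℕ) (g : ℤ × ℤ) (x : ℕ → ℤ) :
    plane k (x + lift k g) = plane k x + g := by
  have h0 : lift k g (2 * k) = g.1 := by simp [lift]
  have h1 : lift k g (2 * k + 1) = g.2 := by simp [lift]
  ext <;> simp [plane, h0, h1]

lemma plane_lift_sub (k : ℕ) (g : ℤ × ℤ) (x : ℕ → ℤ) :
    plane k (x - lift k g) = plane k x - g := by
  have h0 : lift k g (2 * k) = g.1 := by simp [lift]
  have h1 : lift k g (2 * k + 1) = g.2 := by simp [lift]
  ext <;> simp [plane, h0, h1]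

/-- The target at level `k`. -/
def fK (k : ℕ) (x : ℕ → ℤ) : Prop := 64 * (k : ℤ) ≤ sqN k x

lemma fK_succ {k : ℕ} {x : ℕ → ℤ} (h1 : fK k x) (h2 : pf (plane k x)) : fK (k + 1) x := by
  unfold fK sqN at *
  rw [Finset.sum_range_succ]
  unfold pf plane at h2
  push_cast
  simp only at h2
  linarith

/-- The induction step along a suffix of the word. -/
lemma step_forced (k : ℕ) (ih : ∀ p, Forced (fK k) p (tower k)) :
    ∀ (G : List (ℤ × ℤ)) (p : ℕ → ℤ), Forced pf (plane k p) G →
      Forced (fK (k + 1)) p (tower k ++ G.flatMap fun g => lift k g :: tower k) := by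
  intro G
  induction G with
  | nil =>
    intro p h
    have h' : pf (plane k p) := h
    simp only [List.flatMap_nil, List.append_nil]
    exact forced_congr (fun x => plane k x = plane k p)
      (fun x hx hf => fK_succ hf (by rw [hx]; exact h')) _ p (tower_plane _) rfl (ih p)
  | cons g G ihG =>
    intro p h
    have base : pf (plane k p) → Forced (fK (k + 1)) p (tower k) := fun h' =>
      forced_congr (fun x => plane k x = plane k p)
        (fun x hx hf => fK_succ hf (by rw [hx]; exact h')) _ p (tower_plane _) rfl (ih p)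
    rcases h with h | ⟨h1, h2⟩
    · exact forced_append_left _ _ _ (base h)
    · refine forced_append_inv (fun x => plane k x = plane k p) _ _ p (tower_plane _) rfl ?_
      intro x hx
      refine Or.inr ⟨?_, ?_⟩
      · apply ihG
        rw [plane_lift_add, hx]
        exact h1
      · apply ihG
        rw [plane_lift_sub, hx]
        exact h2

theorem tower_forced : ∀ (k : ℕ) (p : ℕ → ℤ), Forced (fK k) p (tower k) := by
  intro k
  induction k with
  | zero =>
    intro p
    show fK 0 p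
    simp [fK, sqN]
  | succ k ih =>
    intro p
    exact step_forced k ih word p (gadget_forced _)

/-! ### Transport to Euclidean space -/

section Transport

variable {G H : Type*} [AddCommGroup G] [AddCommGroup H]

lemma forced_map (φ : G →+ H) {f : G → Prop} {g : H → Prop} (hfg : ∀ x, f x → g (φ x)) :
    ∀ (L : List G) (p : G), Forced f p L → Forced g (φ p) (L.map φ)
  | [], p, h => hfg p h
  | w :: L, p, h => by
    rcases h with h | ⟨h1, h2⟩
    · exact Or.inl (hfg p h)
    · refine Or.inr ⟨?_, ?_⟩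
      · have := forced_map φ hfg L _ h1
        rwa [map_add] at this
      · have := forced_map φ hfg L _ h2
        rwa [map_sub] at this

end Transport

variable {d : ℕ}

/-- The rescaling map to Euclidean space. -/
noncomputable def phi (d : ℕ) : (ℕ → ℤ) →+ EuclideanSpace ℝ (Fin d) where
  toFun x := WithLp.toLp 2 fun i : Fin d => (x i.val : ℝ) / 5
  map_zero' := by
    ext i
    simp
  map_add' x y := by
    ext i
    simp
    ring

lemma norm_phi_sq (x : ℕ → ℤ) : ‖phi d x‖ ^ 2 = ∑ i ∈ Finset.range d, ((x i : ℝ) / 5) ^ 2 := by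
  rw [EuclideanSpace.norm_sq_eq]
  rw [← Fin.sum_univ_eq_sum_range (fun i => ((x i : ℝ) / 5) ^ 2) d]
  refine Finset.sum_congr rfl fun i _ => ?_
  show ‖((x i.val : ℝ) / 5)‖ ^ 2 = _
  rw [Real.norm_eq_abs, sq_abs]

lemma sum_range_two_mul (k : ℕ) (F : ℕ → ℝ) :
    ∑ i ∈ Finset.range (2 * k), F i = ∑ l ∈ Finset.range k, (F (2 * l) + F (2 * l + 1)) := by
  induction k with
  | zero => simp
  | succ k ih =>
    rw [Finset.sum_range_succ, ← ih, show 2 * (k + 1) = 2 * k + 1 + 1 by ring,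
      Finset.sum_range_succ, Finset.sum_range_succ]
    ring

lemma sqN_le {k : ℕ} (hk : 2 * k ≤ d) (x : ℕ → ℤ) : (sqN k x : ℝ) / 25 ≤ ‖phi d x‖ ^ 2 := by
  rw [norm_phi_sq]
  have h1 : ∑ i ∈ Finset.range (2 * k), ((x i : ℝ) / 5) ^ 2
      ≤ ∑ i ∈ Finset.range d, ((x i : ℝ) / 5) ^ 2 := by
    apply Finset.sum_le_sum_of_subset_of_nonneg
    · intro i hi
      simp only [Finset.mem_range] at *
      omega
    · intro i _ _
      positivity
  refine le_trans (le_of_eq ?_) h1
  rw [sum_range_two_mul]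
  unfold sqN
  push_cast
  rw [Finset.sum_div]
  refine Finset.sum_congr rfl fun l _ => ?_
  ring

lemma norm_phi_lift {l : ℕ} (hl : 2 * l + 1 < d) {g : ℤ × ℤ} (hg : g.1 ^ 2 + g.2 ^ 2 ≤ 25) :
    ‖phi d (lift l g)‖ ≤ 1 := by
  have h : ‖phi d (lift l g)‖ ^ 2 ≤ 1 := by
    rw [norm_phi_sq]
    have hsub : ({2 * l, 2 * l + 1} : Finset ℕ) ⊆ Finset.range d := by
      intro i hi
      simp only [Finset.mem_insert, Finset.mem_singleton, Finset.mem_range] at *
      omega
    have hzero : ∀ i ∈ Finset.range d, i ∉ ({2 * l, 2 * l + 1} : Finset ℕ) →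
        (((lift l g i : ℤ) : ℝ) / 5) ^ 2 = 0 := by
      intro i _ hi
      simp only [Finset.mem_insert, Finset.mem_singleton, not_or] at hi
      simp [lift, hi.1, hi.2]
    rw [← Finset.sum_subset hsub hzero]
    rw [Finset.sum_pair (by omega)]
    have h0 : lift l g (2 * l) = g.1 := by simp [lift]
    have h1 : lift l g (2 * l + 1) = g.2 := by simp [lift]
    rw [h0, h1]
    have hr : ((g.1 : ℝ)) ^ 2 + ((g.2 : ℝ)) ^ 2 ≤ 25 := by exact_mod_cast hg
    have : ((g.1 : ℝ) / 5) ^ 2 + ((g.2 : ℝ) / 5) ^ 2 = ((g.1 : ℝ) ^ 2 + (g.2 : ℝ) ^ 2) / 25 := by ring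
    rw [this]
    linarith
  have hnn := norm_nonneg (phi d (lift l g))
  nlinarith

/-- Forcing unfolded along an arbitrary signing. -/
lemma forced_signs {E : Type*} [AddCommGroup E] [Module ℝ E] {f : E → Prop} :
    ∀ (L : List E) (p : E), Forced f p L → ∀ ε : ℕ → ℝ, (∀ i, ε i = 1 ∨ ε i = -1) →
      ∃ k, k ≤ L.length ∧ f (p + ∑ i ∈ Finset.range k, ε i • L.getD i 0)
  | [], p, h, _, _ => ⟨0, le_refl _, by simpa using (show f p from h)⟩
  | w :: L, p, h, ε, hε => by
    rcases h with h | ⟨h1, h2⟩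
    · exact ⟨0, by simp, by simpa using h⟩
    · have shift : ∀ k, ∑ i ∈ Finset.range (k + 1), ε i • (w :: L).getD i 0
          = ε 0 • w + ∑ i ∈ Finset.range k, ε (i + 1) • L.getD i 0 := by
        intro k
        rw [Finset.sum_range_succ', add_comm]
        simp
      rcases hε 0 with h0 | h0
      · obtain ⟨k, hk, hF⟩ := forced_signs L _ h1 (fun i => ε (i + 1)) (fun i => hε _)
        refine ⟨k + 1, by simpa using hk, ?_⟩
        rw [shift, h0, one_smul, ← add_assoc]
        exact hF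
      · obtain ⟨k, hk, hF⟩ := forced_signs L _ h2 (fun i => ε (i + 1)) (fun i => hε _)
        refine ⟨k + 1, by simpa using hk, ?_⟩
        rw [shift, h0, neg_one_smul, ← add_assoc, ← sub_eq_add_neg]
        exact hF

/-- The lower bound in dimension `d`: with `k = d / 2` planes, every signing has a prefix of squared
norm at least `(64 / 25) * k`. -/
theorem lower_bound (d : ℕ) :
    ∃ (N : ℕ) (v : Fin N → EuclideanSpace ℝ (Fin d)), (∀ i, ‖v i‖ ≤ 1) ∧
      ∀ ε : Fin N → ℝ, (∀ i, ε i = 1 ∨ ε i = -1) →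
        ∃ k : ℕ, k ≤ N ∧ (64 / 25 : ℝ) * ((d / 2 : ℕ) : ℝ) ≤
          ‖∑ i : Fin N with i.val < k, ε i • v i‖ ^ 2 := by
  set K := d / 2 with hK
  have h2K : 2 * K ≤ d := by omega
  set L : List (EuclideanSpace ℝ (Fin d)) := (tower K).map (phi d) with hL
  have hF : Forced (fun y : EuclideanSpace ℝ (Fin d) => (64 / 25 : ℝ) * (K : ℝ) ≤ ‖y‖ ^ 2) 0 L := by
    have := forced_map (phi d) (g := fun y => (64 / 25 : ℝ) * (K : ℝ) ≤ ‖y‖ ^ 2)
      (f := fK K) (fun x hx => by
        have h1 := sqN_le h2K x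
        have hx' : 64 * (K : ℤ) ≤ sqN K x := hx
        have h2 : (64 * (K : ℝ)) ≤ (sqN K x : ℝ) := by exact_mod_cast hx'
        show (64 / 25 : ℝ) * (K : ℝ) ≤ ‖phi d x‖ ^ 2
        linarith) (tower K) 0 (tower_forced K 0)
    rwa [map_zero] at this
  have hLnorm : ∀ w ∈ L, ‖w‖ ≤ 1 := by
    intro w hw
    obtain ⟨u, hu, rfl⟩ := List.mem_map.mp hw
    obtain ⟨l, hl, g, hg, rfl⟩ := mem_tower hu
    exact norm_phi_lift (by omega) (word_ok g hg).2
  refine ⟨L.length, fun i => L.getD i.val 0, ?_, ?_⟩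
  · intro i
    have : L.getD i.val 0 ∈ L := by
      have h := i.isLt
      simp [h]
    exact hLnorm _ this
  · intro ε hε
    let ε' : ℕ → ℝ := fun i => if h : i < L.length then ε ⟨i, h⟩ else 1
    have hε' : ∀ i, ε' i = 1 ∨ ε' i = -1 := by
      intro i
      by_cases h : i < L.length
      · simp only [ε', h, dif_pos]; exact hε _
      · simp [ε', h]
    obtain ⟨k, hk, hFk⟩ := forced_signs L 0 hF ε' hε'
    refine ⟨k, hk, ?_⟩
    have hsum : (∑ i : Fin L.length with i.val < k, ε i • L.getD i.val 0)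
        = ∑ i ∈ Finset.range k, ε' i • L.getD i 0 := by
      have h1 : ∀ i : Fin L.length, ε i • L.getD i.val 0 = (fun j => ε' j • L.getD j 0) i.val := by
        intro i
        simp [ε', i.isLt]
      simp_rw [h1]
      exact Vale.Agent.Lib.P262.Plane.sum_fin_filter_eq_range L.length k hk
        (fun j => ε' j • L.getD j 0)
    rw [hsum]
    simpa using hFk

end Vale.Agent.Lib.P262.Gadget
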