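import Mathlib
import Vale.Agent.Lib.P262.Plane

/-!
Lower bounds for Euclidean prefix balancing: in dimension `n + 2`, no constant below the square root
of `n + 3` bounds the prefix sums of all finite sequences in the unit ball.
The plane gadget keeps a single point alive up to sign, killing one child at every step.
-/

namespace Vale.Agent.Lib.P262.PlaneLower

open scoped BigOperators

noncomputable section

/-- Squared norm on pairs. -/
def nsq (z : ℝ × ℝ) : ℝ := z.1 ^ 2 + z.2 ^ 2

/-- Whatever the signs, starting from `p` the trajectory along `L` reaches squared norm at least `f`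
strictly after the start. -/
def Forced (f : ℝ) : ℝ × ℝ → List (ℝ × ℝ) → Prop
  | _, [] => False
  | p, w :: L => (f ≤ nsq (p + w) ∨ Forced f (p + w) L) ∧ (f ≤ nsq (p - w) ∨ Forced f (p - w) L)

lemma nsq_neg (z : ℝ × ℝ) : nsq (-z) = nsq z := by
  simp [nsq]

lemma forced_neg (f : ℝ) (L : List (ℝ × ℝ)) : ∀ p, Forced f p L → Forced f (-p) L := by
  induction L with
  | nil => intro p h; exact h
  | cons w L ih =>
    intro p h
    obtain ⟨h1, h2⟩ := h
    constructor
    · have e : -p + w = -(p - w) := by abel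
      rw [e, nsq_neg]
      rcases h2 with h2 | h2
      · exact Or.inl h2
      · exact Or.inr (ih _ h2)
    · have e : -p - w = -(p + w) := by abel
      rw [e, nsq_neg]
      rcases h1 with h1 | h1
      · exact Or.inl h1
      · exact Or.inr (ih _ h1)

lemma nsq_add (p w : ℝ × ℝ) : nsq (p + w) = nsq p + nsq w + 2 * (p.1 * w.1 + p.2 * w.2) := by
  simp only [nsq, Prod.fst_add, Prod.snd_add]; ring

lemma nsq_sub (p w : ℝ × ℝ) : nsq (p - w) = nsq p + nsq w - 2 * (p.1 * w.1 + p.2 * w.2) := by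
  simp only [nsq, Prod.fst_sub, Prod.snd_sub]; ring

/-- A unit vector with prescribed inner product with `p`. -/
lemma exists_unit_inner (p : ℝ × ℝ) (hp : 0 < nsq p) (t : ℝ) (ht : t ^ 2 ≤ nsq p) :
    ∃ w : ℝ × ℝ, nsq w = 1 ∧ p.1 * w.1 + p.2 * w.2 = t := by
  set x := nsq p with hx
  have hx' : p.1 ^ 2 + p.2 ^ 2 = x := rfl
  set α := t / x with hα
  set β := Real.sqrt (1 / x - α ^ 2) with hβ
  have hnonneg : 0 ≤ 1 / x - α ^ 2 := by
    rw [hα, div_pow, sub_nonneg, div_le_div_iff₀ (by positivity) hp]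
    nlinarith
  have hβ2 : β ^ 2 = 1 / x - α ^ 2 := Real.sq_sqrt hnonneg
  refine ⟨(α * p.1 - β * p.2, α * p.2 + β * p.1), ?_, ?_⟩
  · simp only [nsq]
    have e : (α * p.1 - β * p.2) ^ 2 + (α * p.2 + β * p.1) ^ 2 = (α ^ 2 + β ^ 2) * (p.1 ^ 2 + p.2 ^ 2) := by
      ring
    rw [e, hx', hβ2]
    field_simp
    ring
  · simp only
    have e : p.1 * (α * p.1 - β * p.2) + p.2 * (α * p.2 + β * p.1) = α * (p.1 ^ 2 + p.2 ^ 2) := by ring
    rw [e, hx', hα]
    field_simp

/-- The pump: with excess at least `2 ^ (-n)`, a finite list of unit vectors forces squared norm `f`. -/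
lemma pump (f : ℝ) (hf : 5 / 2 ≤ f) (n : ℕ) :
    ∀ p : ℝ × ℝ, (1 / 2 : ℝ) ^ n ≤ nsq p - (f - 2) →
      ∃ L : List (ℝ × ℝ), (∀ w ∈ L, nsq w = 1) ∧ Forced f p L := by
  have base : ∀ p : ℝ × ℝ, 1 ≤ nsq p - (f - 2) →
      ∃ L : List (ℝ × ℝ), (∀ w ∈ L, nsq w = 1) ∧ Forced f p L := by
    intro p hp
    have hpos : 0 < nsq p := by linarith
    obtain ⟨w, hw, hin⟩ := exists_unit_inner p hpos 0 (by simpa using hpos.le)
    refine ⟨[w], by simpa using hw, ?_⟩
    constructor
    · left; rw [nsq_add, hw, hin]; linarith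
    · left; rw [nsq_sub, hw, hin]; linarith
  induction n with
  | zero => intro p hp; simpa using base p (by simpa using hp)
  | succ n ih =>
    intro p hp
    by_cases h1 : 1 ≤ nsq p - (f - 2)
    · exact base p h1
    push Not at h1
    have hpow : (0 : ℝ) < (1 / 2 : ℝ) ^ (n + 1) := by positivity
    set δ := nsq p - (f - 2) with hδ
    have hδ0 : 0 < δ := by linarith
    have hxδ : nsq p = δ + (f - 2) := by rw [hδ]; ring
    have hpos : 0 < nsq p := by linarith
    -- the inner product that kills one child exactly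
    obtain ⟨w, hw, hin⟩ := exists_unit_inner p hpos ((1 - δ) / 2) (by nlinarith)
    have hchild : nsq (p - w) - (f - 2) = 2 * δ := by
      rw [nsq_sub, hw, hin]; linarith
    have hnext : (1 / 2 : ℝ) ^ n ≤ nsq (p - w) - (f - 2) := by
      rw [hchild]
      have : (1 / 2 : ℝ) ^ (n + 1) = (1 / 2) ^ n / 2 := by rw [pow_succ]; ring
      linarith
    obtain ⟨L, hL, hF⟩ := ih (p - w) hnext
    refine ⟨w :: L, ?_, ?_⟩
    · intro u hu
      rcases List.mem_cons.mp hu with rfl | hu
      · exact hw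
      · exact hL u hu
    · constructor
      · left; rw [nsq_add, hw, hin]; linarith
      · right; exact hF

/-- From the origin: every `f < 3` is forced. -/
lemma forced_origin (f : ℝ) (hf : 5 / 2 ≤ f) (hf3 : f < 3) :
    ∃ L : List (ℝ × ℝ), (∀ w ∈ L, nsq w = 1) ∧ Forced f (0, 0) L := by
  have hd : 0 < 3 - f := by linarith
  obtain ⟨n, hn⟩ := exists_pow_lt_of_lt_one hd (by norm_num : (1 / 2 : ℝ) < 1)
  have hx : nsq ((1 : ℝ), (0 : ℝ)) = 1 := by simp [nsq]
  obtain ⟨L, hL, hF⟩ := pump f hf n (1, 0) (by rw [hx]; linarith)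
  refine ⟨(1, 0) :: L, ?_, ?_⟩
  · intro u hu
    rcases List.mem_cons.mp hu with rfl | hu
    · exact hx
    · exact hL u hu
  · constructor
    · right
      have e : ((0 : ℝ), (0 : ℝ)) + (1, 0) = (1, 0) := by simp
      rw [e]; exact hF
    · right
      have e : ((0 : ℝ), (0 : ℝ)) - (1, 0) = -(1, 0) := by simp
      rw [e]; exact forced_neg f L _ hF

/-! ### Embedding into higher dimension -/

section Embed

variable (n : ℕ)

abbrev EE := EuclideanSpace ℝ (Fin (n + 2))

/-- First coordinate index. -/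
def i0 : Fin (n + 2) := ⟨0, by omega⟩

/-- Second coordinate index. -/
def i1 : Fin (n + 2) := ⟨1, by omega⟩

/-- The plane embedding. -/
def emb (z : ℝ × ℝ) : EE n :=
  EuclideanSpace.single (i0 n) z.1 + EuclideanSpace.single (i1 n) z.2

/-- Forced trajectories in the big space. -/
def ForcedE (F : ℝ) : EE n → List (EE n) → Prop
  | _, [] => False
  | p, w :: L => (F ≤ ‖p + w‖ ^ 2 ∨ ForcedE F (p + w) L) ∧ (F ≤ ‖p - w‖ ^ 2 ∨ ForcedE F (p - w) L)

variable {n}

lemma i0_ne_i1 : i0 n ≠ i1 n := by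
  simp [i0, i1, Fin.ext_iff]

lemma emb_add (z w : ℝ × ℝ) : emb n (z + w) = emb n z + emb n w := by
  ext i
  simp only [emb, Prod.fst_add, Prod.snd_add, PiLp.add_apply, EuclideanSpace.single_apply]
  split_ifs <;> ring

lemma emb_sub (z w : ℝ × ℝ) : emb n (z - w) = emb n z - emb n w := by
  ext i
  simp only [emb, Prod.fst_sub, Prod.snd_sub, PiLp.add_apply, PiLp.sub_apply, EuclideanSpace.single_apply]
  split_ifs <;> ring

lemma inner_emb (y : EE n) (hy0 : y (i0 n) = 0) (hy1 : y (i1 n) = 0) (z : ℝ × ℝ) :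
    inner ℝ y (emb n z) = 0 := by
  simp [emb, inner_add_right, EuclideanSpace.inner_single_right, hy0, hy1]

lemma norm_emb_sq (z : ℝ × ℝ) : ‖emb n z‖ ^ 2 = nsq z := by
  have h : inner ℝ (EuclideanSpace.single (i0 n) z.1 : EE n) (EuclideanSpace.single (i1 n) z.2) = 0 := by
    rw [EuclideanSpace.inner_single_right]
    simp [EuclideanSpace.single_apply, (i0_ne_i1 (n := n)).symm]
  rw [emb, norm_add_sq_real, h]
  simp [nsq, EuclideanSpace.norm_single, sq_abs]

lemma norm_add_emb_sq (y : EE n) (hy0 : y (i0 n) = 0) (hy1 : y (i1 n) = 0) (z : ℝ × ℝ) :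
    ‖y + emb n z‖ ^ 2 = ‖y‖ ^ 2 + nsq z := by
  rw [norm_add_sq_real, inner_emb y hy0 hy1, norm_emb_sq]
  ring

lemma forced_embed (f : ℝ) (L : List (ℝ × ℝ)) : ∀ (z : ℝ × ℝ), Forced f z L →
    ∀ y : EE n, y (i0 n) = 0 → y (i1 n) = 0 →
      ForcedE n (‖y‖ ^ 2 + f) (y + emb n z) (L.map (emb n)) := by
  induction L with
  | nil => intro z h; exact h.elim
  | cons w L ih =>
    intro z h y hy0 hy1
    obtain ⟨h1, h2⟩ := h
    constructor
    · have e : y + emb n z + emb n w = y + emb n (z + w) := by rw [emb_add]; abel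
      rw [e]
      rcases h1 with h1 | h1
      · left; rw [norm_add_emb_sq y hy0 hy1]; linarith
      · right; exact ih _ h1 y hy0 hy1
    · have e : y + emb n z - emb n w = y + emb n (z - w) := by rw [emb_sub]; abel
      rw [e]
      rcases h2 with h2 | h2
      · left; rw [norm_add_emb_sq y hy0 hy1]; linarith
      · right; exact ih _ h2 y hy0 hy1

/-- The coordinate vector. -/
def ev (n : ℕ) (i : Fin (n + 2)) : EE n := EuclideanSpace.single i 1

lemma forced_orth (F : ℝ) (M : List (EE n))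
    (hM : ∀ y : EE n, y (i0 n) = 0 → y (i1 n) = 0 → ‖y‖ ^ 2 = (n : ℝ) → ForcedE n F y M)
    (I : List (Fin (n + 2))) (hnd : I.Nodup) (hI : ∀ i ∈ I, i ≠ i0 n ∧ i ≠ i1 n) :
    ∀ y : EE n, y (i0 n) = 0 → y (i1 n) = 0 → (∀ i ∈ I, y i = 0) →
      ‖y‖ ^ 2 + (I.length : ℝ) = (n : ℝ) → ForcedE n F y (I.map (ev n) ++ M) := by
  induction I with
  | nil =>
    intro y h0 h1 _ hn
    simpa using hM y h0 h1 (by simpa using hn)
  | cons i I ih =>
    intro y h0 h1 hy hn
    have hi := hI i (by simp)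
    have hyi : y i = 0 := hy i (by simp)
    have hnd' := List.nodup_cons.mp hnd
    have hinner : inner ℝ y (ev n i) = 0 := by
      simp [ev, EuclideanSpace.inner_single_right, hyi]
    have hnorm : ‖ev n i‖ ^ 2 = 1 := by
      simp [ev, EuclideanSpace.norm_single]
    have hp : ‖y + ev n i‖ ^ 2 = ‖y‖ ^ 2 + 1 := by
      rw [norm_add_sq_real, hinner, hnorm]; ring
    have hm : ‖y - ev n i‖ ^ 2 = ‖y‖ ^ 2 + 1 := by
      rw [norm_sub_sq_real, hinner, hnorm]; ring
    have hlen : ‖y‖ ^ 2 + 1 + (I.length : ℝ) = (n : ℝ) := by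
      have : ((i :: I).length : ℝ) = I.length + 1 := by simp
      rw [this] at hn; linarith
    have hcoord : ∀ (s : ℝ) (j : Fin (n + 2)), j ≠ i → (y + s • ev n i) j = y j := by
      intro s j hj
      simp [ev, EuclideanSpace.single_apply, hj]
    have hplus : ForcedE n F (y + ev n i) (I.map (ev n) ++ M) := by
      have e : y + ev n i = y + (1 : ℝ) • ev n i := by simp
      apply ih hnd'.2 (fun j hj => hI j (List.mem_cons_of_mem _ hj))
      · rw [e, hcoord _ _ hi.1.symm]; exact h0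
      · rw [e, hcoord _ _ hi.2.symm]; exact h1
      · intro j hj
        have hji : j ≠ i := fun h => hnd'.1 (h ▸ hj)
        rw [e, hcoord _ _ hji]; exact hy j (List.mem_cons_of_mem _ hj)
      · rw [hp]; exact hlen
    have hminus : ForcedE n F (y - ev n i) (I.map (ev n) ++ M) := by
      have e : y - ev n i = y + (-1 : ℝ) • ev n i := by simp [sub_eq_add_neg]
      apply ih hnd'.2 (fun j hj => hI j (List.mem_cons_of_mem _ hj))
      · rw [e, hcoord _ _ hi.1.symm]; exact h0
      · rw [e, hcoord _ _ hi.2.symm]; exact h1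
      · intro j hj
        have hji : j ≠ i := fun h => hnd'.1 (h ▸ hj)
        rw [e, hcoord _ _ hji]; exact hy j (List.mem_cons_of_mem _ hj)
      · rw [hm]; exact hlen
    exact ⟨Or.inr hplus, Or.inr hminus⟩

/-- The list of coordinates other than the first two. -/
def restI (n : ℕ) : List (Fin (n + 2)) := (List.finRange n).map (fun j => ⟨j.val + 2, by omega⟩)

lemma restI_length : (restI n).length = n := by simp [restI]

lemma restI_nodup : (restI n).Nodup := by
  apply List.Nodup.map _ (List.nodup_finRange n)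
  intro a b h
  simp only [Fin.mk.injEq] at h
  exact Fin.ext (by omega)

lemma restI_ne : ∀ i ∈ restI n, i ≠ i0 n ∧ i ≠ i1 n := by
  intro i hi
  simp only [restI, List.mem_map] at hi
  obtain ⟨j, _, rfl⟩ := hi
  simp [i0, i1, Fin.ext_iff]

/-- In the big space: a list of vectors of the unit ball forcing squared norm `n + f`. -/
lemma forced_big (f : ℝ) (hf : 5 / 2 ≤ f) (hf3 : f < 3) :
    ∃ L : List (EE n), (∀ w ∈ L, ‖w‖ ≤ 1) ∧ ForcedE n ((n : ℝ) + f) 0 L := by
  obtain ⟨L, hL, hF⟩ := forced_origin f hf hf3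
  refine ⟨(restI n).map (ev n) ++ L.map (emb n), ?_, ?_⟩
  · intro w hw
    rcases List.mem_append.mp hw with hw | hw
    · obtain ⟨i, _, rfl⟩ := List.mem_map.mp hw
      simp [ev, EuclideanSpace.norm_single]
    · obtain ⟨z, hz, rfl⟩ := List.mem_map.mp hw
      have h1 := norm_emb_sq (n := n) z
      rw [hL z hz] at h1
      nlinarith [norm_nonneg (emb n z)]
  · apply forced_orth ((n : ℝ) + f) (L.map (emb n)) _ (restI n) restI_nodup restI_ne
    · simp [i0]
    · simp
    · simp
    · simp [restI_length]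
    · intro y h0 h1 hy
      have := forced_embed f L (0, 0) hF y h0 h1
      have e : y + emb n (0, 0) = y := by
        have : emb n (0, 0) = 0 := by
          ext j
          simp [emb]
        rw [this, add_zero]
      rw [e, hy] at this
      exact this

/-- Forcing unfolded along an arbitrary signing. -/
lemma forced_signs (F : ℝ) (L : List (EE n)) :
    ∀ (p : EE n), ForcedE n F p L → ∀ ε : ℕ → ℝ, (∀ i, ε i = 1 ∨ ε i = -1) →
      ∃ k, k ≤ L.length ∧ F ≤ ‖p + ∑ i ∈ Finset.range k, ε i • L.getD i 0‖ ^ 2 := by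
  induction L with
  | nil => intro p h; exact h.elim
  | cons w L ih =>
    intro p h ε hε
    obtain ⟨h1, h2⟩ := h
    have shift : ∀ k, ∑ i ∈ Finset.range (k + 1), ε i • (w :: L).getD i 0
        = ε 0 • w + ∑ i ∈ Finset.range k, ε (i + 1) • L.getD i 0 := by
      intro k
      rw [Finset.sum_range_succ', add_comm]
      simp
    rcases hε 0 with h0 | h0
    · rcases h1 with h1 | h1
      · refine ⟨1, by simp, ?_⟩
        simpa [h0] using h1
      · obtain ⟨k, hk, hF⟩ := ih _ h1 (fun i => ε (i + 1)) (fun i => hε _)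
        refine ⟨k + 1, by simpa using hk, ?_⟩
        rw [shift, h0, one_smul, ← add_assoc]
        exact hF
    · rcases h2 with h2 | h2
      · refine ⟨1, by simp, ?_⟩
        simpa [h0, sub_eq_add_neg] using h2
      · obtain ⟨k, hk, hF⟩ := ih _ h2 (fun i => ε (i + 1)) (fun i => hε _)
        refine ⟨k + 1, by simpa using hk, ?_⟩
        rw [shift, h0, neg_one_smul, ← add_assoc, ← sub_eq_add_neg]
        exact hF

/-- The lower bound in dimension `n + 2`. -/
theorem lower_bound (n : ℕ) (c : ℝ) (hc : c < Real.sqrt ((n : ℝ) + 3)) :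
    ∃ (N : ℕ) (v : Fin N → EuclideanSpace ℝ (Fin (n + 2))), (∀ i, ‖v i‖ ≤ 1) ∧
      ∀ ε : Fin N → ℝ, (∀ i, ε i = 1 ∨ ε i = -1) →
        ∃ k : ℕ, k ≤ N ∧ c < ‖∑ i : Fin N with i.val < k, ε i • v i‖ := by
  -- choose the squared threshold
  have hn3 : (0 : ℝ) < (n : ℝ) + 3 := by positivity
  obtain ⟨f, hf, hf3, hcf⟩ : ∃ f : ℝ, 5 / 2 ≤ f ∧ f < 3 ∧ c < Real.sqrt ((n : ℝ) + f) := by
    by_cases hc0 : c < 0
    · refine ⟨5 / 2, by norm_num, by norm_num, lt_of_lt_of_le hc0 (Real.sqrt_nonneg _)⟩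
    push Not at hc0
    have hc2 : c ^ 2 < (n : ℝ) + 3 := by
      have := (Real.lt_sqrt hc0).mp hc
      exact this
    refine ⟨max (5 / 2) ((c ^ 2 - n + 3) / 2), le_max_left _ _, ?_, ?_⟩
    · apply max_lt (by norm_num)
      linarith
    · apply (Real.lt_sqrt hc0).mpr
      have := le_max_right (5 / 2 : ℝ) ((c ^ 2 - n + 3) / 2)
      linarith
  obtain ⟨L, hL, hF⟩ := forced_big (n := n) f hf hf3
  refine ⟨L.length, fun i => L.getD i.val 0, ?_, ?_⟩
  · intro i
    have : L.getD i.val 0 ∈ L := by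
      have h := i.isLt
      simp [List.getD_eq_getElem, h]
    exact hL _ this
  · intro ε hε
    let ε' : ℕ → ℝ := fun i => if h : i < L.length then ε ⟨i, h⟩ else 1
    have hε' : ∀ i, ε' i = 1 ∨ ε' i = -1 := by
      intro i
      by_cases h : i < L.length
      · simp only [ε', h, dif_pos]; exact hε _
      · simp [ε', h]
    obtain ⟨k, hk, hFk⟩ := forced_signs _ L 0 hF ε' hε'
    refine ⟨k, hk, ?_⟩
    have hsum : (∑ i : Fin L.length with i.val < k, ε i • L.getD i.val 0)
        = ∑ i ∈ Finset.range k, ε' i • L.getD i 0 := by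
      have h1 : ∀ i : Fin L.length, ε i • L.getD i.val 0 = (fun j => ε' j • L.getD j 0) i.val := by
        intro i
        simp [ε', i.isLt]
      simp_rw [h1]
      exact Vale.Agent.Lib.P262.Plane.sum_fin_filter_eq_range L.length k hk (fun j => ε' j • L.getD j 0)
    rw [hsum]
    rw [zero_add] at hFk
    calc c < Real.sqrt ((n : ℝ) + f) := hcf
      _ ≤ Real.sqrt (‖∑ i ∈ Finset.range k, ε' i • L.getD i 0‖ ^ 2) := Real.sqrt_le_sqrt hFk
      _ = ‖∑ i ∈ Finset.range k, ε' i • L.getD i 0‖ := Real.sqrt_sq (norm_nonneg _)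

end Embed

end

end Vale.Agent.Lib.P262.PlaneLower
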